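import Mathlib
import Vale.Agent.P361.Defs
import Vale.Agent.P361.Relations
import Vale.Agent.P361.Bound
import Vale.Agent.P361.Asymp
import Vale.Agent.P361.Integral

/-!
One half of Bloch's `T^(3/2)` law, with the sharp constant, for the three-dimensional quantum
Heisenberg ferromagnet of arbitrary spin `S = n/2`.
-/

namespace Vale.Agent.Results.P361.BlochUpper

open Filter Topology MeasureTheory Vale.Agent.P361

theorem result (n : ℕ) (hn : 1 ≤ n) :
    -- the matrices used are the spin matrices of spin `n/2`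
    ((S1 n).IsHermitian ∧ (S2 n).IsHermitian ∧ (S3 n).IsHermitian ∧
      S1 n * S2 n - S2 n * S1 n = Complex.I • S3 n ∧
      S2 n * S3 n - S3 n * S2 n = Complex.I • S1 n ∧
      S3 n * S1 n - S1 n * S3 n = Complex.I • S2 n ∧
      S1 n * S1 n + S2 n * S2 n + S3 n * S3 n =
        ((n : ℂ) / 2 * ((n : ℂ) / 2 + 1)) • (1 : Matrix (Fin (n + 1)) (Fin (n + 1)) ℂ)) ∧
    -- the thermodynamic limit exists, is convex, and the spontaneous magnetization is its
    -- right derivative at zero field
    (∀ β : ℝ, 0 < β →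
      (∀ h : ℝ, Tendsto (fun N : ℕ => finitePressure n N β h) atTop (𝓝 (pressure n β h))) ∧
      ConvexOn ℝ Set.univ (pressure n β) ∧
      HasDerivWithinAt (pressure n β) (spontaneousMagnetization n β) (Set.Ioi 0) 0) ∧
    -- a bound at every temperature
    (∀ β : ℝ, 0 < β → 0 < spontaneousMagnetization n β →
      IntegrableOn (fun k : Fin 3 → ℝ => 1 / (Real.exp (β * (((n : ℝ) / 2)
        / spontaneousMagnetization n β) * dispersion n k) - 1))
        (Set.Icc (fun _ => -Real.pi) (fun _ => Real.pi)) ∧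
      spontaneousMagnetization n β / ((n : ℝ) / 2) * ((1 / (2 * Real.pi) ^ 3) *
        ∫ k in Set.Icc (fun _ : Fin 3 => -Real.pi) (fun _ => Real.pi),
          1 / (Real.exp (β * (((n : ℝ) / 2) / spontaneousMagnetization n β)
            * dispersion n k) - 1))
        ≤ (n : ℝ) / 2 - spontaneousMagnetization n β) ∧
    -- the lower bound in Bloch's law:
    -- `liminf_{β → ∞} β^(3/2) (S - m_S(β)) ≥ ζ(3/2) / (8 π^(3/2) S^(3/2))`
    (∀ c : ℝ, c < (riemannZeta (3 / 2)).re
          / (8 * Real.pi ^ (3 / 2 : ℝ) * ((n : ℝ) / 2) ^ (3 / 2 : ℝ)) →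
      ∀ᶠ β : ℝ in atTop,
        c ≤ β ^ (3 / 2 : ℝ) * ((n : ℝ) / 2 - spontaneousMagnetization n β)) := by
  refine ⟨⟨S1_herm n, S2_herm n, S3_herm n, comm12 n, comm23 n, comm31 n, casimir n⟩, ?_, ?_, ?_⟩
  · intro β hβ
    exact ⟨fun h => pressure_tendsto n β h hβ, pressure_convex n β hβ,
      magnetization_hasDeriv n β hβ⟩
  · intro β hβ hm
    exact integral_bound n hn β hβ hm
  · intro c hc
    exact asymptotic n hn c hc

end Vale.Agent.Results.P361.BlochUpper
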